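import Mathlib.Computability.PartrecCode
import Mathlib.Tactic.FunProp

/-! `fun_prop` support for `Primrec` and `Computable`. -/

attribute [fun_prop] Primrec Computable

namespace Vale.Agent.Lib.Comp

variable {α β γ σ : Type*} [Primcodable α] [Primcodable β] [Primcodable γ] [Primcodable σ]

@[fun_prop] theorem pr_id : Primrec (fun a : α => a) := Primrec.id
@[fun_prop] theorem pr_const (x : σ) : Primrec (fun _ : α => x) := Primrec.const x
@[fun_prop] theorem pr_comp {f : β → σ} {g : α → β} (hf : Primrec f) (hg : Primrec g) :
    Primrec (fun a => f (g a)) := hf.comp hg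
@[fun_prop] theorem pr_fst {f : α → β × γ} (hf : Primrec f) : Primrec (fun a => (f a).1) :=
  Primrec.fst.comp hf
@[fun_prop] theorem pr_snd {f : α → β × γ} (hf : Primrec f) : Primrec (fun a => (f a).2) :=
  Primrec.snd.comp hf
@[fun_prop] theorem pr_pair {f : α → β} {g : α → γ} (hf : Primrec f) (hg : Primrec g) :
    Primrec (fun a => (f a, g a)) := hf.pair hg
@[fun_prop] theorem pr_add {f g : α → ℕ} (hf : Primrec f) (hg : Primrec g) :
    Primrec (fun a => f a + g a) := Primrec.nat_add.comp hf hg
@[fun_prop] theorem pr_sub {f g : α → ℕ} (hf : Primrec f) (hg : Primrec g) :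
    Primrec (fun a => f a - g a) := Primrec.nat_sub.comp hf hg
@[fun_prop] theorem pr_mul {f g : α → ℕ} (hf : Primrec f) (hg : Primrec g) :
    Primrec (fun a => f a * g a) := Primrec.nat_mul.comp hf hg
@[fun_prop] theorem pr_div {f g : α → ℕ} (hf : Primrec f) (hg : Primrec g) :
    Primrec (fun a => f a / g a) := Primrec.nat_div.comp hf hg
@[fun_prop] theorem pr_mod {f g : α → ℕ} (hf : Primrec f) (hg : Primrec g) :
    Primrec (fun a => f a % g a) := Primrec.nat_mod.comp hf hg
@[fun_prop] theorem pr_pow {f g : α → ℕ} (hf : Primrec f) (hg : Primrec g) :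
    Primrec (fun a => f a ^ g a) :=
  (Primrec₂.unpaired'.1 Nat.Primrec.pow : Primrec₂ fun a b : ℕ => a ^ b).comp hf hg
@[fun_prop] theorem pr_succ {f : α → ℕ} (hf : Primrec f) : Primrec (fun a => (f a).succ) :=
  Primrec.succ.comp hf
@[fun_prop] theorem pr_natPair {f g : α → ℕ} (hf : Primrec f) (hg : Primrec g) :
    Primrec (fun a => Nat.pair (f a) (g a)) := Primrec₂.natPair.comp hf hg
@[fun_prop] theorem pr_unpair {f : α → ℕ} (hf : Primrec f) :
    Primrec (fun a => Nat.unpair (f a)) := Primrec.unpair.comp hf
@[fun_prop] theorem pr_encode {f : α → β} (hf : Primrec f) :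
    Primrec (fun a => Encodable.encode (f a)) := Primrec.encode.comp hf
@[fun_prop] theorem pr_some {f : α → β} (hf : Primrec f) : Primrec (fun a => some (f a)) :=
  Primrec.option_some.comp hf
@[fun_prop] theorem pr_inl {f : α → β} (hf : Primrec f) :
    Primrec (fun a => (Sum.inl (f a) : β ⊕ γ)) := Primrec.sumInl.comp hf
@[fun_prop] theorem pr_inr {f : α → γ} (hf : Primrec f) :
    Primrec (fun a => (Sum.inr (f a) : β ⊕ γ)) := Primrec.sumInr.comp hf
@[fun_prop] theorem pr_cons {f : α → β} {g : α → List β} (hf : Primrec f) (hg : Primrec g) :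
    Primrec (fun a => f a :: g a) := Primrec.list_cons.comp hf hg
@[fun_prop] theorem pr_append {f g : α → List β} (hf : Primrec f) (hg : Primrec g) :
    Primrec (fun a => f a ++ g a) := Primrec.list_append.comp hf hg
@[fun_prop] theorem pr_length {f : α → List β} (hf : Primrec f) :
    Primrec (fun a => (f a).length) := Primrec.list_length.comp hf
@[fun_prop] theorem pr_tail {f : α → List β} (hf : Primrec f) :
    Primrec (fun a => (f a).tail) := Primrec.list_tail.comp hf
@[fun_prop] theorem pr_range {f : α → ℕ} (hf : Primrec f) :
    Primrec (fun a => List.range (f a)) := Primrec.list_range.comp hf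
@[fun_prop] theorem pr_getD {f : α → List β} {g : α → ℕ} (d : β) (hf : Primrec f)
    (hg : Primrec g) : Primrec (fun a => (f a).getD (g a) d) := (Primrec.list_getD d).comp hf hg
@[fun_prop] theorem pr_headD {f : α → List β} (d : β) (hf : Primrec f) :
    Primrec (fun a => (f a).headD d) :=
  (pr_getD d hf (Primrec.const 0)).of_eq fun a => by cases f a <;> rfl
@[fun_prop] theorem pr_map {f : α → List β} {g : α → β → σ} (hf : Primrec f)
    (hg : Primrec fun p : α × β => g p.1 p.2) : Primrec (fun a => (f a).map (g a)) :=
  Primrec.list_map hf hg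
@[fun_prop] theorem pr_flatMap {f : α → List β} {g : α → β → List σ} (hf : Primrec f)
    (hg : Primrec fun p : α × β => g p.1 p.2) : Primrec (fun a => (f a).flatMap (g a)) :=
  Primrec.list_flatMap hf hg
@[fun_prop] theorem pr_foldr {f : α → List β} {g : α → σ} {h : α → β → σ → σ} (hf : Primrec f)
    (hg : Primrec g) (hh : Primrec fun p : α × β × σ => h p.1 p.2.1 p.2.2) :
    Primrec (fun a => (f a).foldr (h a) (g a)) :=
  Primrec.list_foldr (h := fun a p => h a p.1 p.2) hf hg hh
@[fun_prop] theorem pr_iterate {f : α → ℕ} {g : α → β} {h : α → β → β} (hf : Primrec f)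
    (hg : Primrec g) (hh : Primrec fun p : α × β => h p.1 p.2) :
    Primrec (fun a => (h a)^[f a] (g a)) := Primrec.nat_iterate hf hg hh
@[fun_prop] theorem pr_cond {c : α → Bool} {f g : α → σ} (hc : Primrec c) (hf : Primrec f)
    (hg : Primrec g) : Primrec (fun a => bif c a then f a else g a) := Primrec.cond hc hf hg
@[fun_prop] theorem pr_decide_lt {f g : α → ℕ} (hf : Primrec f) (hg : Primrec g) :
    Primrec (fun a => decide (f a < g a)) := (Primrec.nat_lt.comp hf hg).decide
@[fun_prop] theorem pr_decide_le {f g : α → ℕ} (hf : Primrec f) (hg : Primrec g) :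
    Primrec (fun a => decide (f a ≤ g a)) := (Primrec.nat_le.comp hf hg).decide
@[fun_prop] theorem pr_decide_eq [DecidableEq β] {f g : α → β} (hf : Primrec f) (hg : Primrec g) :
    Primrec (fun a => decide (f a = g a)) := (Primrec.eq.comp hf hg).decide
@[fun_prop] theorem pr_and {f g : α → Bool} (hf : Primrec f) (hg : Primrec g) :
    Primrec (fun a => (f a && g a)) := Primrec.and.comp hf hg
@[fun_prop] theorem pr_replicate {f : α → ℕ} {g : α → β} (hf : Primrec f) (hg : Primrec g) :
    Primrec (fun a => List.replicate (f a) (g a)) :=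
  (pr_map (g := fun a _ => g a) (pr_range hf) (hg.comp Primrec.fst)).of_eq fun a => by simp
@[fun_prop] theorem pr_sumElim {f : α → β ⊕ γ} {g : α → β → σ} {h : α → γ → σ} (hf : Primrec f)
    (hg : Primrec fun p : α × β => g p.1 p.2) (hh : Primrec fun p : α × γ => h p.1 p.2) :
    Primrec (fun a => Sum.elim (g a) (h a) (f a)) :=
  (Primrec.sumCasesOn hf hg hh).of_eq fun a => by cases f a <;> rfl
@[fun_prop] theorem pr_optElim {f : α → Option β} {g : α → σ} {h : α → β → σ} (hf : Primrec f)
    (hg : Primrec g) (hh : Primrec fun p : α × β => h p.1 p.2) :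
    Primrec (fun a => Option.elim (f a) (g a) (h a)) :=
  (Primrec.option_casesOn hf hg hh).of_eq fun a => by cases f a <;> rfl

@[fun_prop] theorem co_id : Computable (fun a : α => a) := Computable.id
@[fun_prop] theorem co_const (x : σ) : Computable (fun _ : α => x) := Computable.const x
@[fun_prop] theorem co_comp {f : β → σ} {g : α → β} (hf : Computable f) (hg : Computable g) :
    Computable (fun a => f (g a)) := hf.comp hg
@[fun_prop] theorem co_fst {f : α → β × γ} (hf : Computable f) :
    Computable (fun a => (f a).1) := Computable.fst.comp hf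
@[fun_prop] theorem co_snd {f : α → β × γ} (hf : Computable f) :
    Computable (fun a => (f a).2) := Computable.snd.comp hf
@[fun_prop] theorem co_pair {f : α → β} {g : α → γ} (hf : Computable f) (hg : Computable g) :
    Computable (fun a => (f a, g a)) := hf.pair hg
@[fun_prop] theorem co_add {f g : α → ℕ} (hf : Computable f) (hg : Computable g) :
    Computable (fun a => f a + g a) := Primrec.nat_add.to_comp.comp hf hg
@[fun_prop] theorem co_sub {f g : α → ℕ} (hf : Computable f) (hg : Computable g) :
    Computable (fun a => f a - g a) := Primrec.nat_sub.to_comp.comp hf hg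
@[fun_prop] theorem co_mul {f g : α → ℕ} (hf : Computable f) (hg : Computable g) :
    Computable (fun a => f a * g a) := Primrec.nat_mul.to_comp.comp hf hg
@[fun_prop] theorem co_pow {f g : α → ℕ} (hf : Computable f) (hg : Computable g) :
    Computable (fun a => f a ^ g a) :=
  (Primrec₂.unpaired'.1 Nat.Primrec.pow : Primrec₂ fun a b : ℕ => a ^ b).to_comp.comp hf hg
@[fun_prop] theorem co_cons {f : α → β} {g : α → List β} (hf : Computable f)
    (hg : Computable g) : Computable (fun a => f a :: g a) := Computable.list_cons.comp hf hg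
@[fun_prop] theorem co_append {f g : α → List β} (hf : Computable f) (hg : Computable g) :
    Computable (fun a => f a ++ g a) := Computable.list_append.comp hf hg
@[fun_prop] theorem co_length {f : α → List β} (hf : Computable f) :
    Computable (fun a => (f a).length) := Computable.list_length.comp hf
@[fun_prop] theorem co_tail {f : α → List β} (hf : Computable f) :
    Computable (fun a => (f a).tail) := Primrec.list_tail.to_comp.comp hf
@[fun_prop] theorem co_range {f : α → ℕ} (hf : Computable f) :
    Computable (fun a => List.range (f a)) := Primrec.list_range.to_comp.comp hf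
@[fun_prop] theorem co_cond {c : α → Bool} {f g : α → σ} (hc : Computable c) (hf : Computable f)
    (hg : Computable g) : Computable (fun a => bif c a then f a else g a) :=
  Computable.cond hc hf hg
@[fun_prop] theorem co_encode {f : α → β} (hf : Computable f) :
    Computable (fun a => Encodable.encode (f a)) := Computable.encode.comp hf
@[fun_prop] theorem co_decide_lt {f g : α → ℕ} (hf : Computable f) (hg : Computable g) :
    Computable (fun a => decide (f a < g a)) :=
  (Primrec.to_comp (pr_decide_lt (Primrec.fst (α := ℕ) (β := ℕ)) Primrec.snd)).comp (hf.pair hg)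
@[fun_prop] theorem co_sumElim {f : α → β ⊕ γ} {g : α → β → σ} {h : α → γ → σ}
    (hf : Computable f) (hg : Computable fun p : α × β => g p.1 p.2)
    (hh : Computable fun p : α × γ => h p.1 p.2) :
    Computable (fun a => Sum.elim (g a) (h a) (f a)) :=
  (Computable.sumCasesOn hf hg hh).of_eq fun a => by cases f a <;> rfl
@[fun_prop] theorem co_optElim {f : α → Option β} {g : α → σ} {h : α → β → σ}
    (hf : Computable f) (hg : Computable g) (hh : Computable fun p : α × β => h p.1 p.2) :
    Computable (fun a => Option.elim (f a) (g a) (h a)) :=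
  (Computable.option_casesOn hf hg hh).of_eq fun a => by cases f a <;> rfl

@[fun_prop] theorem co_map {f : α → List β} {g : α → β → σ} (hf : Computable f)
    (hg : Computable fun p : α × β => g p.1 p.2) : Computable (fun a => (f a).map (g a)) := by
  have hget : Computable fun p : α × ℕ × List σ => (f p.1)[p.2.1]? :=
    Computable.list_getElem?.comp (hf.comp Computable.fst) (Computable.fst.comp Computable.snd)
  have hstep : Computable fun p : α × ℕ × List σ =>
      Option.elim (f p.1)[p.2.1]? p.2.2 (fun b => p.2.2 ++ [g p.1 b]) := by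
    refine co_optElim (h := fun (p : α × ℕ × List σ) (b : β) => p.2.2 ++ [g p.1 b]) hget
      (by fun_prop) ?_
    refine co_append (by fun_prop) (co_cons ?_ (Computable.const _))
    exact hg.comp (g := fun q : (α × ℕ × List σ) × β => (q.1.1, q.2)) (by fun_prop)
  have key := Computable.nat_rec (f := fun a => (f a).length) (g := fun _ => ([] : List σ))
    (h := fun a p => Option.elim (f a)[p.1]? p.2 (fun b => p.2 ++ [g a b]))
    (co_length hf) (Computable.const _) hstep
  refine key.of_eq fun a => ?_
  have : ∀ n, (Nat.rec ([] : List σ)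
      (fun y IH => Option.elim (f a)[y]? IH (fun b => IH ++ [g a b])) n : List σ)
      = ((f a).take n).map (g a) := by
    intro n
    induction n with
    | zero => simp
    | succ n ih =>
      simp only [ih, List.take_add_one]
      cases (f a)[n]? <;> simp
  simpa using this (f a).length

end Vale.Agent.Lib.Comp
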